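import Vale.Agent.P372W90.Main

/-!
# P372: an entangled state without distillable secret key

Protocols are trees of local quantum instruments (completely positive maps) acting on the state of
`A B E`, the final state `τ` of `K_A K_B E'` is one operator, `σ` is an arbitrary state of `E'` and
the trace norm is `tr √(X* X)`. The definitions are in `Vale/Agent/P372W90/Defs.lean`.
-/

open Matrix

namespace Vale.Agent.Results.P372.AAZeroKeyStates

open Vale.Agent.P372W

/-- (1) There is an entangled state with `K_D = 0` (purifications exist, and `K_D = 0` for each of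
them). (2) The final operator of a protocol run on a state is a state. (3) `K_D` is not always
`0`. -/
theorem result :
    (∃ (a b : ℕ) (ρ : Matrix (Fin a × Fin b) (Fin a × Fin b) ℂ), IsState ρ ∧ ¬ Separable ρ ∧
      (∃ ψ : (Fin a × Fin b) × (Fin a × Fin b) → ℂ, IsPurification ψ ρ) ∧
      ∀ (E : Type) [Fintype E] [DecidableEq E] (ψ : (Fin a × Fin b) × E → ℂ),
        IsPurification ψ ρ → secretKey ψ = 0) ∧
    (∀ (K A B E : Type) [Fintype K] [Fintype A] [Fintype B] [Fintype E] (π : Protocol K A B)
      (X : Matrix ((A × B) × E) ((A × B) × E) ℂ), IsState X → IsState (π.finalState X)) ∧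
    ∃ ρ : Matrix (Fin 3 × Fin 3) (Fin 3 × Fin 3) ℂ, IsState ρ ∧
      ∀ (E : Type) [Fintype E] [DecidableEq E] (ψ : (Fin 3 × Fin 3) × E → ℂ),
        IsPurification ψ ρ → 0 < secretKey ψ :=
  main

end Vale.Agent.Results.P372.AAZeroKeyStates
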